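import Vale.Agent.Lib.P235.UB.CAN01

namespace Vale.Agent.Lib.P235.UB.Cert

open Vale.Agent.Lib.P235.UB.Cert.Tree

def sdNA01 : ScaleD := { flagged := [12,13,14,15], ratios := [mk [(4,24),(5,-1)], mk [(4,1),(5,-1)], mk [(4,2),(5,-1)], mk [(4,1),(5,-2)], mk [(4,4),(5,-1)], mk [(4,1),(5,-4)], mk [(4,16),(5,-1)], mk [(4,1),(5,-16)], mk [(4,4),(5,-3)], mk [(4,3),(5,-4)], mk [(4,10),(5,-9)], mk [(4,9),(5,-10)], mk [(4,100),(5,-97)], mk [(4,97),(5,-100)], mk [(4,25),(5,-24)], mk [(4,24),(5,-25)], mk [(4,50),(5,-49)], mk [(4,49),(5,-50)]], grid := [(1,2),(1,4),(3,4),(1,8),(7,8),(1,16),(15,16)] }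

/-- wall -/
noncomputable def tA4n01_0 : Tree := node 48 (cons (node 41 (cons (leaf 11 14 0x1f440007d04000fa0800202801fc0a001f814005f028003e05001edef000cbf2006902801e200403d00880720140008) (cons (leaf 17 21 0x9c4080009c4020004e2010004018c007e9c40004f26ac000b80640019c032000f675f70033277400719356001f44e1e003a9c4000194e2000348064003c49c0400044e0200fc000a007a26e580190015400084d580010) nil))) (cons (node 46 (cons (node 41 (cons (leaf 11 16 0x7d10001f410003e82000fd0400201400fe05000fc0a002f814001f02800f7f400195ef000cbf2006902801e200403d00880720140008) (cons (leaf 17 23 0x27102000271008001388040019c4020010031800fd3880009e4d58001700c800338064001ecebee00664ee800e326ac003e89c3c0076710000ca9c4000194e2000348064003c49c0400044e0200fc000a007a26e580190015400084d580010) nil))) (cons (leaf 8 10 0x648000024000c8400101007f02001f02007bc80065630019650069020008) (cons (node 41 (cons (node 5 (cons (leaf 31 25 0x2153e7f880000018a8808000f96baf4100041133908200142a7cff0400300aaa35c00fe02aa8d70007c05551ae003dc2a7cff0006541fd2c94003286a4e69801a404fa772001480aaa35c00f10009c40000e20009c40000440027100002f0004e20000ee0009c40001ec001388000188002710000010004e20000fc00069e2a00e8002c092000d004cabed807200aaa35c0008)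 (cons (leaf 28 18 0x6d79a28800000271004000ccd30f0400107101b04002daf34504003011841a007f0230834001f0230834007bdaf345000656c6160e00196e91e420069020c68c0029023083400f10001f40000c001a12900f400242980034019a07900e402308340008) nil))) (cons (leaf 26 21 0x1a761a8000006aae1000019a0be40010d3b0d10008008624001f0049250013c009e70000f0021890039c008624007b002189000cc008624001d002189001d434ec340065b962b3803e41a761a0019069d86801a40009130009002189003c4000fc800f40020cdc00d00086240008) nil))) (cons (leaf 8 9 0x648002024000c8400301007f02001f02007bc80065630019630069) (cons (leaf 43 23 0x2be7f3660a0000020d1945174000a5ef16ba024800297bc5ae809080060147c78cf3800fc028f8f19e7002f975fe426c40004f010cc406aa400ce0219880d54801ecbaff2136200019975fe426c4000e316d982236ee00fa2db30446ddc01b41e58defb350012a5ef16ba02400197f25a53343800d202341f8e62003c45b66088dbb80010b6cc111b7700fc000e1a638f401e85a72df56238019001e6dcab1580040b6cc111b770010) (cons (leaf 1 4 0xc000c016600930008) (cons (leaf 33 22 0x6522d210000b2c69a008002b2c69a002001807f1d3e800fc03042e2000be62315440004f17e657b4000b80a5fd5c0019c052feae000f65075fba9003302f6e81400298c9929360038c5f995ed000fa182386a9001d08f054800012acb1a68000065658d340000d202b07a0000f117e657b400010bf32bda003f00044d90001e8349fae000064)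 nil)))))))) nil))

def kWA01 : Nat := 70

set_option maxRecDepth 100000 in
theorem okWA01 : chkStage kWA01 (scaleRun (runProg sbA01 progNA01) (wallP sdNA01 tNA01 1 2)) (wallGoal (runProg sbA01 progNA01) tNA01 0 1 2) [tA4n01_0] = true := by decide +kernel

noncomputable def ndA01 : NeedleCert sbA01 0 1 2 where
  prog := progNA01
  t := tNA01
  K3 := kNA01
  trees3 := treesNA01
  sd := sdNA01
  K4 := kWA01
  tree4 := tA4n01_0
  ok3 := okNA01
  ok4 := okWA01
  okB := by decide +kernel
  okP := by decide +kernel
  okS := by decide +kernel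
  okT := by decide +kernel
  okK3 := by decide +kernel
  okK4 := by decide +kernel

end Vale.Agent.Lib.P235.UB.Cert
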