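import Vale.Agent.Lib.P235.UB.CAN10

namespace Vale.Agent.Lib.P235.UB.Cert

open Vale.Agent.Lib.P235.UB.Cert.Tree

def sdNA10 : ScaleD := { flagged := [12,13,14,15], ratios := [mk [(4,-1),(5,24)], mk [(4,-1),(5,1)], mk [(4,-1),(5,2)], mk [(4,-2),(5,1)], mk [(4,-1),(5,4)], mk [(4,-4),(5,1)], mk [(4,-1),(5,16)], mk [(4,-16),(5,1)], mk [(4,-3),(5,4)], mk [(4,-4),(5,3)], mk [(4,-9),(5,10)], mk [(4,-10),(5,9)], mk [(4,-97),(5,100)], mk [(4,-100),(5,97)], mk [(4,-24),(5,25)], mk [(4,-25),(5,24)], mk [(4,-49),(5,50)], mk [(4,-50),(5,49)]], grid := [(1,2),(1,4),(3,4),(1,8),(7,8),(1,16),(15,16)] }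

/-- wall -/
noncomputable def tA4n10_0 : Tree := node 48 (cons (node 41 (cons (leaf 28 23 0x416fb58800082df6b0400082df6b0400100a7846007f014f08c001f00c8f0f004f00c8f0f000f014f08c002740c83120019421739e0069014dc8f0029014e9f900f10000693007100148b6005100522d8006101781f8007a014f08c003a002916c001a002916c00e2002916c00020010c07000c00020df007400297ff0070) (cons (leaf 28 20 0x4bd3dd8800097a7bb0400097a7bb0400100c21e6007f01843cc001f01843cc00274b11bf200194c95fbe0069006ff0b0029000f79d00090075df000f1010e5dc007134ce4f80051d3393e000616b20dbc007a01843cc003a699c9f000520022e34000c0547d4c0074010e5dc0070) nil))) (cons (node 46 (cons (node 41 (cons (leaf 28 25 0x416fb58800082df6b0400082df6b0400182df6b0400200a7846007f014f08c001f00c8f0f004f00c8f0f000f014f08c002782df6b0006540c83120019421739e0069014dc8f0029014e9f900f10000693007100148b6005100522d8006101781f8007a014f08c003a002916c001a002916c00e2002916c00020010c07000c00020df007400297ff0070) (cons (leaf 28 22 0x4bd3dd8800097a7bb0400097a7bb0400197a7bb0400200c21e6007f01843cc001f01843cc002797a7bb000654b11bf200194c95fbe0069006ff0b0029000f79d00090075df000f1010e5dc007134ce4f80051d3393e000616b20dbc007a01843cc003a699c9f000520022e34000c0547d4c0074010e5dc0070)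 nil))) (cons (leaf 8 11 0x648000024000c8400101007f02001f020027c8006563001965006902007a02003a) (cons (node 41 (cons (leaf 33 29 0x120c60cc800000e416a02000044a128b1000448318330800400901c58007f0000f829002f8017962a0007c0183c010009e005e58a800270030f416807180187a0b4000c4831833000cbefc839bc00f908be223a000c84a71f49001a40023479c0012005e418800f100048fd0003880024220000840012110001dc0009088000f6002f20c4003d00154e42000e800121100003400091fa0000a00048fd000790005b3c4001d000afb10c00a800091fa00040) (cons (leaf 26 18 0x567ca2000000f5b44000054913900042b3e504002000dd6801fc006eb4001f001bad0009c2b3e5000659909c8803e41567ce00190575a0801a40008eb0009001bad003c4006eb4007a001bad000e8000e74000c001b0fc015000f5b400e4) nil))) (cons (leaf 8 9 0x648002024000c8400301007f02001f020027c80065630019630069) (cons (leaf 39 24 0x14cfc4b11000000f8e5f4e200051fb155bc8400147ec556f20400300b81f930800fe02e07e4c20007c05c0fc984001383989ddf280025473435dc180032f282bdabd001a4037541581001480704688c000f1009c4cdb4000e23d0e05a5000145e8702d2800030aa4d82e390007a178d00222000740007e2ca740068f42850ff180290001f8b29d00e20003f1653a0004002615cae000300c3601210003a00501f203d0070)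 (cons (leaf 1 6 0x30003001f8077c016600f5003a) (cons (leaf 29 23 0xd3b4520001763990100057639900400300ef810003f80ef8100007c077c080004e12b614000255c9ee30000caf3ef28001a4033b192005203e14fb0009017c11800788037e29001c4575201000a2aea402000612d88028003d00ef810000e86eb8b6000341ff5a6000521bae2d800710dd716c000080824fd80018045db340074) nil)))))))) nil))

def kWA10 : Nat := 66

set_option maxRecDepth 100000 in
theorem okWA10 : chkStage kWA10 (scaleRun (runProg sbA10 progNA10) (wallP sdNA10 tNA10 2 1)) (wallGoal (runProg sbA10 progNA10) tNA10 0 2 1) [tA4n10_0] = true := by decide +kernel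

noncomputable def ndA10 : NeedleCert sbA10 0 2 1 where
  prog := progNA10
  t := tNA10
  K3 := kNA10
  trees3 := treesNA10
  sd := sdNA10
  K4 := kWA10
  tree4 := tA4n10_0
  ok3 := okNA10
  ok4 := okWA10
  okB := by decide +kernel
  okP := by decide +kernel
  okS := by decide +kernel
  okT := by decide +kernel
  okK3 := by decide +kernel
  okK4 := by decide +kernel

end Vale.Agent.Lib.P235.UB.Cert
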