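import Vale.Agent.Lib.P235.UB.CertFlowC

/-! From the checks to the goals `GoalsT` (module T5): `chkStage_sound`, `init_holds`, `regA_holds`, `regB_holds` in
`CertFlowA`, the bridge in `CertFlowB`, `RegimeCert.final` in `CertFlowC`. -/
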