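import Vale.Agent.Lib.P235.UB.CertDefs

/-!
Data for the closure certificates: the input facts and clauses, the goal forms.
Variables: `0,1,2 = d01,d02,d12`, `3,4,5 = σ`, `6,7,8 = x`, `9 = D`, and `ta tb tc` are the three `T` values.
-/

namespace Vale.Agent.Lib.P235.UB.Cert

/-- a sparse form -/
def mk (l : List (Nat × Int)) : Form := l.foldr (fun p f => fadd (fvar p.1 p.2) f) []

/-- the facts of the input: triangle inequalities, nonnegativity, floors and ceilings -/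
def inputFacts : List Form := [
  mk [(0,1),(1,1),(2,-1)],
  mk [(2,-1),(7,1),(8,1)],
  mk [(3,1)],
  mk [(0,1),(1,-1),(2,1)],
  mk [(1,-1),(6,1),(8,1)],
  mk [(4,1)],
  mk [(0,-1),(1,1),(2,1)],
  mk [(0,-1),(6,1),(7,1)],
  mk [(5,1)],
  mk [(0,1),(6,-1),(7,1)],
  mk [(1,1),(6,-1),(8,1)],
  mk [(0,1),(6,1),(7,-1)],
  mk [(2,1),(7,-1),(8,1)],
  mk [(1,1),(6,1),(8,-1)],
  mk [(2,1),(7,1),(8,-1)],
  mk [(0,1),(3,-1),(4,-1)],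
  mk [(0,-1),(3,100),(4,100)],
  mk [(1,1),(3,-1),(5,-1)],
  mk [(1,-1),(3,100),(5,100)],
  mk [(2,1),(4,-1),(5,-1)],
  mk [(2,-1),(4,100),(5,100)]]

/-- the clauses of the input: apex conditions and the `J` condition -/
def inputClauses : List Clause := [
  [[nl (mk [(0,-1),(3,100),(4,-1),(5,99)])], [nl (mk [(1,-1),(3,100),(4,99),(5,-1)])], [nl (mk [(2,17),(4,-20),(5,-20)])]],
  [[nl (mk [(0,-1),(3,-1),(4,100),(5,99)])], [nl (mk [(2,-1),(3,99),(4,100),(5,-1)])], [nl (mk [(1,17),(3,-20),(5,-20)])]],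
  [[nl (mk [(1,-1),(3,-1),(4,99),(5,100)])], [nl (mk [(2,-1),(3,99),(4,-1),(5,100)])], [nl (mk [(0,17),(3,-20),(4,-20)])]],
  [[nl (mk [(0,1),(1,1),(2,1),(3,-4),(4,-4),(5,-4)])], [nl (mk [(0,1),(1,1),(2,1),(3,-12),(4,-2),(5,-2)])], [nl (mk [(0,1),(1,1),(2,1),(3,-2),(4,-12),(5,-2)])], [nl (mk [(0,1),(1,1),(2,1),(3,-2),(4,-2),(5,-12)])], [nl (mk [(0,1),(1,1),(2,1),(3,-8),(4,-4),(5,-2)])], [nl (mk [(0,1),(1,1),(2,1),(3,-8),(4,-2),(5,-4)])], [nl (mk [(0,1),(1,1),(2,1),(3,-4),(4,-8),(5,-2)])], [nl (mk [(0,1),(1,1),(2,1),(3,-2),(4,-8),(5,-4)])], [nl (mk [(0,1),(1,1),(2,1),(3,-4),(4,-2),(5,-8)])], [nl (mk [(0,1),(1,1),(2,1),(3,-2),(4,-4),(5,-8)])]]]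

/-- the regime with all `y ≥ 0`, sorted -/
def regimeFactsA : List Form := [mk [(3,-1),(4,1),(6,1),(7,-1)], mk [(4,-1),(5,1),(7,1),(8,-1)], mk [(5,-1),(8,1)]]

/-- the regime with `y_0 ≤ 0`, `y_1 ≥ y_2` -/
def regimeFactsB : List Form := [mk [(3,1),(6,-1)], mk [(4,-1),(5,1),(7,1),(8,-1)]]

/-- the 9 base variables with the input and the facts of the regime -/
def st0 (r : List Form) : St := ⟨9, inputFacts ++ r, inputClauses⟩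

/-- the goals with apex label 0 -/
def goalList0 (ta tb tc : Nat) : List (List Form) := [
  [mk [(3,100),(6,-1),(ta,100)]],
  [mk [(3,-1),(6,1),(ta,-1)]],
  [mk [(4,100),(7,-1),(tb,100)]],
  [mk [(4,-1),(7,1),(tb,-1)]],
  [mk [(5,100),(8,-1),(tc,100)]],
  [mk [(5,-1),(8,1),(tc,-1)]],
  [mk [(tb,1),(tc,1)]],
  [mk [(ta,1),(tc,1)]],
  [mk [(ta,1),(tb,1)]],
  [mk [(3,2),(ta,1),(tb,-1)]],
  [mk [(3,2),(ta,1),(tc,-1)]],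
  [mk [(4,2),(tb,1),(tc,-1)]],
  [mk [(5,2),(tb,-1),(tc,1)]],
  [mk [(ta,1),(tb,-1)]],
  [mk [(ta,1),(tc,-1)]],
  [mk [(3,99),(4,100),(7,-1),(ta,-1)], mk [(0,-1),(3,-1),(4,100),(ta,-1),(tb,100)], mk [(3,-20),(6,17),(ta,-20)]],
  [mk [(3,99),(5,100),(8,-1),(ta,-1)], mk [(1,-1),(3,-1),(5,100),(ta,-1),(tc,100)], mk [(3,-20),(6,17),(ta,-20)]],
  [mk [(3,100),(4,99),(6,-1),(tb,-1)], mk [(0,-1),(3,100),(4,-1),(ta,100),(tb,-1)], mk [(4,-20),(7,17),(tb,-20)]],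
  [mk [(4,99),(5,100),(8,-1),(tb,-1)], mk [(2,-1),(4,-1),(5,100),(tb,-1),(tc,100)], mk [(4,-20),(7,17),(tb,-20)]],
  [mk [(3,100),(5,99),(6,-1),(tc,-1)], mk [(1,-1),(3,100),(5,-1),(ta,100),(tc,-1)], mk [(5,-20),(8,17),(tc,-20)]],
  [mk [(4,100),(5,99),(7,-1),(tc,-1)], mk [(2,-1),(4,100),(5,-1),(tb,100),(tc,-1)], mk [(5,-20),(8,17),(tc,-20)]],
  [mk [(3,-1),(4,99),(6,-1),(tb,100)], mk [(3,99),(4,-1),(7,-1),(ta,100)], mk [(0,17),(3,-20),(4,-20)]],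
  [mk [(0,1),(3,-4),(4,-4),(6,1),(7,1),(ta,-2),(tb,-2)], mk [(0,1),(3,-2),(4,-2),(6,1),(7,1),(ta,-6),(tb,-6)], mk [(0,1),(3,-12),(4,-2),(6,1),(7,1),(ta,-6),(tb,4)], mk [(0,1),(3,-2),(4,-12),(6,1),(7,1),(ta,4),(tb,-6)], mk [(0,1),(3,-4),(4,-2),(6,1),(7,1),(ta,-5),(tb,-3)], mk [(0,1),(3,-2),(4,-4),(6,1),(7,1),(ta,-3),(tb,-5)], mk [(0,1),(3,-8),(4,-2),(6,1),(7,1),(ta,-5),(tb,1)], mk [(0,1),(3,-8),(4,-4),(6,1),(7,1),(ta,-3),(tb,1)], mk [(0,1),(3,-2),(4,-8),(6,1),(7,1),(ta,1),(tb,-5)], mk [(0,1),(3,-4),(4,-8),(6,1),(7,1),(ta,1),(tb,-3)]],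
  [mk [(3,-1),(5,99),(6,-1),(tc,100)], mk [(3,99),(5,-1),(8,-1),(ta,100)], mk [(1,17),(3,-20),(5,-20)]],
  [mk [(1,1),(3,-4),(5,-4),(6,1),(8,1),(ta,-2),(tc,-2)], mk [(1,1),(3,-2),(5,-2),(6,1),(8,1),(ta,-6),(tc,-6)], mk [(1,1),(3,-12),(5,-2),(6,1),(8,1),(ta,-6),(tc,4)], mk [(1,1),(3,-2),(5,-12),(6,1),(8,1),(ta,4),(tc,-6)], mk [(1,1),(3,-4),(5,-2),(6,1),(8,1),(ta,-5),(tc,-3)], mk [(1,1),(3,-2),(5,-4),(6,1),(8,1),(ta,-3),(tc,-5)], mk [(1,1),(3,-8),(5,-2),(6,1),(8,1),(ta,-5),(tc,1)], mk [(1,1),(3,-8),(5,-4),(6,1),(8,1),(ta,-3),(tc,1)], mk [(1,1),(3,-2),(5,-8),(6,1),(8,1),(ta,1),(tc,-5)], mk [(1,1),(3,-4),(5,-8),(6,1),(8,1),(ta,1),(tc,-3)]],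
  [mk [(4,-1),(5,99),(7,-1),(tc,100)], mk [(4,99),(5,-1),(8,-1),(tb,100)], mk [(2,17),(4,-20),(5,-20)]],
  [mk [(2,1),(4,-4),(5,-4),(7,1),(8,1),(tb,-2),(tc,-2)], mk [(2,1),(4,-2),(5,-2),(7,1),(8,1),(tb,-6),(tc,-6)], mk [(2,1),(4,-12),(5,-2),(7,1),(8,1),(tb,-6),(tc,4)], mk [(2,1),(4,-2),(5,-12),(7,1),(8,1),(tb,4),(tc,-6)], mk [(2,1),(4,-4),(5,-2),(7,1),(8,1),(tb,-5),(tc,-3)], mk [(2,1),(4,-2),(5,-4),(7,1),(8,1),(tb,-3),(tc,-5)], mk [(2,1),(4,-8),(5,-2),(7,1),(8,1),(tb,-5),(tc,1)], mk [(2,1),(4,-8),(5,-4),(7,1),(8,1),(tb,-3),(tc,1)], mk [(2,1),(4,-2),(5,-8),(7,1),(8,1),(tb,1),(tc,-5)], mk [(2,1),(4,-4),(5,-8),(7,1),(8,1),(tb,1),(tc,-3)]],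
  [mk [(9,-2),(ta,60),(tb,31),(tc,31)]],
  [mk [(3,-2),(4,29)], mk [(9,-2),(ta,60),(tb,-29),(tc,-29)], mk [(3,3240),(9,-62),(ta,1860),(tb,-899),(tc,-899)]],
  [mk [(3,-2),(5,29)], mk [(9,-2),(ta,60),(tb,-29),(tc,-29)], mk [(3,3240),(9,-62),(ta,1860),(tb,-899),(tc,-899)]],
  [mk [(9,-2),(ta,31),(tb,60),(tc,31)]],
  [mk [(3,29),(4,-2)], mk [(9,-2),(ta,31),(tc,-29)], mk [(4,3240),(9,-62),(ta,-899),(tb,1860),(tc,-899)]],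
  [mk [(4,-2),(5,29)], mk [(9,-2),(ta,31),(tc,-29)], mk [(4,3240),(9,-62),(ta,-899),(tb,1860),(tc,-899)]],
  [mk [(9,-2),(ta,31),(tb,31),(tc,60)]],
  [mk [(3,29),(5,-2)], mk [(9,-2),(ta,31),(tb,-29)], mk [(5,3240),(9,-62),(ta,-899),(tb,-899),(tc,1860)]],
  [mk [(4,29),(5,-2)], mk [(9,-2),(ta,31),(tb,-29)], mk [(5,3240),(9,-62),(ta,-899),(tb,-899),(tc,1860)]]]

/-- the goals with apex label 1 -/
def goalList1 (ta tb tc : Nat) : List (List Form) := [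
  [mk [(3,100),(6,-1),(ta,100)]],
  [mk [(3,-1),(6,1),(ta,-1)]],
  [mk [(4,100),(7,-1),(tb,100)]],
  [mk [(4,-1),(7,1),(tb,-1)]],
  [mk [(5,100),(8,-1),(tc,100)]],
  [mk [(5,-1),(8,1),(tc,-1)]],
  [mk [(tb,1),(tc,1)]],
  [mk [(ta,1),(tc,1)]],
  [mk [(ta,1),(tb,1)]],
  [mk [(3,2),(ta,1),(tc,-1)]],
  [mk [(4,2),(ta,-1),(tb,1)]],
  [mk [(4,2),(tb,1),(tc,-1)]],
  [mk [(5,2),(ta,-1),(tc,1)]],
  [mk [(ta,-1),(tb,1)]],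
  [mk [(tb,1),(tc,-1)]],
  [mk [(3,99),(4,100),(7,-1),(ta,-1)], mk [(0,-1),(3,-1),(4,100),(ta,-1),(tb,100)], mk [(3,-20),(6,17),(ta,-20)]],
  [mk [(3,99),(5,100),(8,-1),(ta,-1)], mk [(1,-1),(3,-1),(5,100),(ta,-1),(tc,100)], mk [(3,-20),(6,17),(ta,-20)]],
  [mk [(3,100),(4,99),(6,-1),(tb,-1)], mk [(0,-1),(3,100),(4,-1),(ta,100),(tb,-1)], mk [(4,-20),(7,17),(tb,-20)]],
  [mk [(4,99),(5,100),(8,-1),(tb,-1)], mk [(2,-1),(4,-1),(5,100),(tb,-1),(tc,100)], mk [(4,-20),(7,17),(tb,-20)]],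
  [mk [(3,100),(5,99),(6,-1),(tc,-1)], mk [(1,-1),(3,100),(5,-1),(ta,100),(tc,-1)], mk [(5,-20),(8,17),(tc,-20)]],
  [mk [(4,100),(5,99),(7,-1),(tc,-1)], mk [(2,-1),(4,100),(5,-1),(tb,100),(tc,-1)], mk [(5,-20),(8,17),(tc,-20)]],
  [mk [(3,-1),(4,99),(6,-1),(tb,100)], mk [(3,99),(4,-1),(7,-1),(ta,100)], mk [(0,17),(3,-20),(4,-20)]],
  [mk [(0,1),(3,-4),(4,-4),(6,1),(7,1),(ta,-2),(tb,-2)], mk [(0,1),(3,-2),(4,-2),(6,1),(7,1),(ta,-6),(tb,-6)], mk [(0,1),(3,-12),(4,-2),(6,1),(7,1),(ta,-6),(tb,4)], mk [(0,1),(3,-2),(4,-12),(6,1),(7,1),(ta,4),(tb,-6)], mk [(0,1),(3,-4),(4,-2),(6,1),(7,1),(ta,-5),(tb,-3)], mk [(0,1),(3,-2),(4,-4),(6,1),(7,1),(ta,-3),(tb,-5)], mk [(0,1),(3,-8),(4,-2),(6,1),(7,1),(ta,-5),(tb,1)], mk [(0,1),(3,-8),(4,-4),(6,1),(7,1),(ta,-3),(tb,1)], mk [(0,1),(3,-2),(4,-8),(6,1),(7,1),(ta,1),(tb,-5)],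 mk [(0,1),(3,-4),(4,-8),(6,1),(7,1),(ta,1),(tb,-3)]],
  [mk [(3,-1),(5,99),(6,-1),(tc,100)], mk [(3,99),(5,-1),(8,-1),(ta,100)], mk [(1,17),(3,-20),(5,-20)]],
  [mk [(1,1),(3,-4),(5,-4),(6,1),(8,1),(ta,-2),(tc,-2)], mk [(1,1),(3,-2),(5,-2),(6,1),(8,1),(ta,-6),(tc,-6)], mk [(1,1),(3,-12),(5,-2),(6,1),(8,1),(ta,-6),(tc,4)], mk [(1,1),(3,-2),(5,-12),(6,1),(8,1),(ta,4),(tc,-6)], mk [(1,1),(3,-4),(5,-2),(6,1),(8,1),(ta,-5),(tc,-3)], mk [(1,1),(3,-2),(5,-4),(6,1),(8,1),(ta,-3),(tc,-5)], mk [(1,1),(3,-8),(5,-2),(6,1),(8,1),(ta,-5),(tc,1)], mk [(1,1),(3,-8),(5,-4),(6,1),(8,1),(ta,-3),(tc,1)], mk [(1,1),(3,-2),(5,-8),(6,1),(8,1),(ta,1),(tc,-5)], mk [(1,1),(3,-4),(5,-8),(6,1),(8,1),(ta,1),(tc,-3)]],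
  [mk [(4,-1),(5,99),(7,-1),(tc,100)], mk [(4,99),(5,-1),(8,-1),(tb,100)], mk [(2,17),(4,-20),(5,-20)]],
  [mk [(2,1),(4,-4),(5,-4),(7,1),(8,1),(tb,-2),(tc,-2)], mk [(2,1),(4,-2),(5,-2),(7,1),(8,1),(tb,-6),(tc,-6)], mk [(2,1),(4,-12),(5,-2),(7,1),(8,1),(tb,-6),(tc,4)], mk [(2,1),(4,-2),(5,-12),(7,1),(8,1),(tb,4),(tc,-6)], mk [(2,1),(4,-4),(5,-2),(7,1),(8,1),(tb,-5),(tc,-3)], mk [(2,1),(4,-2),(5,-4),(7,1),(8,1),(tb,-3),(tc,-5)], mk [(2,1),(4,-8),(5,-2),(7,1),(8,1),(tb,-5),(tc,1)], mk [(2,1),(4,-8),(5,-4),(7,1),(8,1),(tb,-3),(tc,1)], mk [(2,1),(4,-2),(5,-8),(7,1),(8,1),(tb,1),(tc,-5)], mk [(2,1),(4,-4),(5,-8),(7,1),(8,1),(tb,1),(tc,-3)]],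
  [mk [(9,-2),(ta,60),(tb,31),(tc,31)]],
  [mk [(3,-2),(4,29)], mk [(9,-2),(tb,31),(tc,-29)], mk [(3,3240),(9,-62),(ta,1860),(tb,-899),(tc,-899)]],
  [mk [(3,-2),(5,29)], mk [(9,-2),(tb,31),(tc,-29)], mk [(3,3240),(9,-62),(ta,1860),(tb,-899),(tc,-899)]],
  [mk [(9,-2),(ta,31),(tb,60),(tc,31)]],
  [mk [(3,29),(4,-2)], mk [(9,-2),(ta,-29),(tb,60),(tc,-29)], mk [(4,3240),(9,-62),(ta,-899),(tb,1860),(tc,-899)]],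
  [mk [(4,-2),(5,29)], mk [(9,-2),(ta,-29),(tb,60),(tc,-29)], mk [(4,3240),(9,-62),(ta,-899),(tb,1860),(tc,-899)]],
  [mk [(9,-2),(ta,31),(tb,31),(tc,60)]],
  [mk [(3,29),(5,-2)], mk [(9,-2),(ta,-29),(tb,31)], mk [(5,3240),(9,-62),(ta,-899),(tb,-899),(tc,1860)]],
  [mk [(4,29),(5,-2)], mk [(9,-2),(ta,-29),(tb,31)], mk [(5,3240),(9,-62),(ta,-899),(tb,-899),(tc,1860)]]]

/-- the wall goal: `2 W - 2 T_A` with `W = (T_u + T_v)/2 + q σ_u + (1 - q) σ_v`; `zn` is the first scaled variable, `su`, `sv` the numbers of `σ_u`, `σ_v` -/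
def wallForm (ta tu tv zn su sv : Nat) : Form :=
  mk [(tu, 1), (tv, 1), (zn + su, 2), (sv, 2), (zn + sv, -2), (ta, -2)]

/-- numerator of the wall coefficient -/
def wallNum (tu tv sv : Nat) : Form := mk [(sv, 2), (tv, 1), (tu, -1)]

/-- denominator of the wall coefficient -/
def wallSig (su sv : Nat) : Form := mk [(su, 1), (sv, 1)]

/-- the clause that says that the base action passes the wall. -/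
def nnlClause (a1 a2 a3 a4 stv stu sv su : Form) : Clause :=
  [[nl a1], [nl a2], [nl a3], [nl a4],
   [sl (fneg stv), sl (fneg stu)], [sl (fneg stv), sl (fneg su)],
   [sl (fneg sv), sl (fneg stu)], [sl (fneg sv), sl (fneg su)]]

end Vale.Agent.Lib.P235.UB.Cert
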